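import Crest.Agent.X262.Sark.Game
import Crest.Agent.X262.Mod79.QD
import Crest.Agent.X277.AN.G1Conn
import Crest.Agent.X262.Mod79.Facet_Mg

-- ▼ part X262/Sark14/Star
section

/-!
# Row 262, SARK (helper14): walls and stars

* calculus of the geography: `ef_add`, `P_nsmul`, `P_add_le`, `pr_add`, `big_ev`, `exists_ch`,
  `pr_of_face`, `car_of_face`;
* `wallStmt : WallStmt`;
* `exists_ext` : the chamber which extracts a missing prime; `exists_anti` : the direction `-K`;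
* `starStmt_of : CellStmt → MissStmt → ChainStmt → StarStmt`.
-/

set_option autoImplicit false
set_option linter.unusedSectionVars false

open Filter
open scoped KaehlerDifferential

noncomputable section

namespace Crest.Agent.X262.Sark14

open Crest.Agent.X277 Crest.Agent.X277.Lef Crest.Agent.X277.BD Crest.Agent.X277.Pst
open Crest.Agent.X277.BD.Br (On oP kP)
open Crest.Agent.X262.Mod Crest.Agent.X262.Sark

/-! ### generic points -/

section Arr

variable {κ : Type} {N : ℕ} {l : Fin N → (κ → ℤ) →+ ℤ} {x y g : κ → ℤ}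

theorem ev_ne {a : ℤ} (ha : a ≠ 0) (c : ℤ) : ∀ᶠ n : ℕ in atTop, n * a + c ≠ 0 := by
  rcases ha.lt_or_gt with h | h
  · filter_upwards [Sark.ev_pos (neg_pos.2 h) (-c)] with n hn h0
    linarith
  · exact (Sark.ev_pos h c).mono fun _ h => h.ne'

theorem ev_ne' (l : (κ → ℤ) →+ ℤ) (h : l x ≠ 0 ∨ l g ≠ 0) :
    ∀ᶠ n : ℕ in atTop, l (n • x + g) ≠ 0 := by
  simp only [map_add, map_nsmul]
  simp only [nsmul_eq_mul]
  by_cases h0 : l x = 0
  · exact Eventually.of_forall fun n => by simpa [h0] using h.resolve_left (not_not.2 h0)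
  · exact ev_ne h0 _

theorem cham_ev (hg : Cham l g) (x : κ → ℤ) : ∀ᶠ n : ℕ in atTop, Cham l (n • x + g) := by
  refine eventually_all.2 fun i => ?_
  by_cases h : l i = 0
  · exact Eventually.of_forall fun _ h1 => absurd h h1
  · exact (ev_ne' (l i) (Or.inr (hg i h))).mono fun _ h1 _ => h1

variable (l) in
theorem exists_cham : ∃ g, Cham l g := by
  classical
  have key : ∀ s : Finset (Fin N), ∃ g, ∀ i ∈ s, l i ≠ 0 → l i g ≠ 0 := by
    intro s
    induction s using Finset.induction_on with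
    | empty => exact ⟨0, by simp⟩
    | insert i s _ ih =>
      obtain ⟨g, hg⟩ := ih
      by_cases hi : l i = 0
      · exact ⟨g, Finset.forall_mem_insert .. |>.2 ⟨fun h => absurd hi h, hg⟩⟩
      obtain ⟨z, hz⟩ := DFunLike.ne_iff.1 hi
      have h1 : ∀ᶠ n : ℕ in atTop, ∀ j ∈ s, l j ≠ 0 → l j (n • g + z) ≠ 0 :=
        (eventually_all_finset s).2 fun j hj => by
          by_cases h : l j = 0
          · exact Eventually.of_forall fun _ h1 => absurd h h1
          · exact (ev_ne' (l j) (Or.inl (hg j hj h))).mono fun _ h1 _ => h1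
      obtain ⟨n, h2, h3⟩ := (h1.and (ev_ne' (l i) (x := g) (Or.inr hz))).exists
      exact ⟨_, Finset.forall_mem_insert .. |>.2 ⟨fun _ => h3, h2⟩⟩
  exact (key Finset.univ).imp fun g hg i => hg i (Finset.mem_univ i)

theorem Seg.face {p₀ p₁ z : κ → ℤ} (h : Seg p₀ p₁ z) (h₀ : Face l x p₀) (h₁ : Face l x p₁) :
    Face l x z := by
  obtain ⟨a, c, ha, rfl⟩ := h
  rcases c.eq_zero_or_pos with rfl | hc
  · simpa using h₀.nsmul_right ha
  · exact (h₀.nsmul_right ha).add_right (h₁.nsmul_right hc)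

theorem Seg.ps {p₀ p₁ z : κ → ℤ} (h : Seg p₀ p₁ z) (h₀ : Ps p₀) (h₁ : Ps p₁) : Ps z := by
  obtain ⟨a, c, ha, rfl⟩ := h
  rcases c.eq_zero_or_pos with rfl | hc
  · simpa using h₀.nsmul ha
  · exact (h₀.nsmul ha).add (h₁.nsmul hc)

end Arr

/-! ### the calculus of the geography -/

variable {K : Type} [Field K] [Algebra ℂ K] {n : ℕ} {b : Module.Basis (Fin n) K Ω[K⁄ℂ]}
  {G : Gm b} {x y y' z w : G.κ → ℤ} {V E : RZ ℂ K}

theorem pos_add_pr {a P : BD ℂ K} (h : Mod.Pos a P) (f : K) (m : ℕ) :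
    Mod.Pos (a + m • pr ℂ f) (P + m • pr ℂ f) := by
  induction m with
  | zero => simpa using h
  | succ m ih =>
    rw [succ_nsmul, ← add_assoc, ← add_assoc]
    exact ih.add_pr f

theorem ef_of_big (hx : Ps x) (h : Big (G.D x)) : G.Ef x := ⟨hx, h.exists_eff⟩

theorem ef_pos (h : G.Ef x) : Mod.Pos (G.c • G.D x) (G.P x) := G.pos x h.1 h.2

theorem ef_free (h : G.Ef x) : (G.P x).Free := (ef_pos h).free

theorem ef_add (hx : G.Ef x) (hy : G.Ef y) : G.Ef (x + y) := by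
  obtain ⟨h1, m, hm, h2⟩ := hx
  obtain ⟨h3, m', hm', h4⟩ := hy
  refine ⟨h1.add h3, m * m', mul_pos hm hm', ?_⟩
  convert (h2.nsmul m').add (h4.nsmul m) using 1
  rw [map_add]
  module

theorem ef_nsmul (hx : G.Ef x) {m : ℕ} (hm : 0 < m) : G.Ef (m • x) := by
  obtain ⟨h1, q, hq, h2⟩ := hx
  exact ⟨h1.nsmul hm, q, hq, by rw [map_nsmul, smul_comm]; exact h2.nsmul m⟩

theorem P_nsmul (hx : G.Ef x) {m : ℕ} (hm : 0 < m) : G.P (m • x) = m • G.P x :=
  (ef_pos (ef_nsmul hx hm)).unique (by rw [map_nsmul, smul_comm]; exact (ef_pos hx).nsmul m)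

theorem P_add (hx : G.Ef x) (hy : G.Ef y) (h : Conf G.l x y) : G.P (x + y) = G.P x + G.P y :=
  G.add x y hx.1 hy.1 hx.2 hy.2 h

theorem P_add_le (hx : G.Ef x) (hy : G.Ef y) : G.P x + G.P y ≤ G.P (x + y) :=
  (ef_pos hx).add_le (ef_pos hy) (by simpa only [map_add, smul_add] using ef_pos (ef_add hx hy))

theorem P_face (hx : G.Ef x) (hy : G.Ef y) (h : Face G.l x y) (m : ℕ) :
    G.P (m • x + y) = m • G.P x + G.P y := by
  rcases m.eq_zero_or_pos with rfl | hm
  · simp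
  · rw [P_add (ef_nsmul hx hm) hy (h.nsmul_left m).conf, P_nsmul hx hm]

theorem pr_add (hx : G.Ef x) (hy : G.Ef y) (h : G.Pr x V) (h' : G.Pr y V) : G.Pr (x + y) V := by
  refine ⟨h.1, ((ef_pos (ef_add hx hy)).le V).antisymm (le_trans (le_of_eq ?_) (P_add_le hx hy V))⟩
  rw [map_add, smul_add, val_add, val_add, h.2, h'.2]

theorem pr_nsmul (hx : G.Ef x) {m : ℕ} (hm : 0 < m) : G.Pr (m • x) V ↔ G.Pr x V := by
  refine and_congr_right fun _ => ?_
  rw [P_nsmul hx hm, map_nsmul, smul_comm, val_nsmul m, val_nsmul m,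
    pow_left_inj₀ zero_le zero_le hm.ne']

theorem big_ev (h : Big (G.D x)) (y : G.κ → ℤ) : ∀ᶠ m : ℕ in atTop, Big (G.D (m • x + y)) := by
  obtain ⟨m, hm⟩ := h.exists_sub (-G.D y)
  filter_upwards [eventually_ge_atTop m] with r hr
  simpa only [map_add, map_nsmul, sub_neg_eq_add] using hm r hr


theorem isMod_P (hx : G.Ef x) (h : Big (G.D x)) : IsMod (G.P x) :=
  (ef_pos hx).isMod (h.nsmul G.c_pos)

/-- a big point is a face of a chamber -/
theorem exists_ch (hw : Ps w) (hb : Big (G.D w)) : ∃ z, G.Ch z ∧ Face G.l w z := by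
  obtain ⟨g, hg⟩ := exists_cham G.l
  obtain ⟨m, ⟨h1, h2⟩, h3, h4⟩ :=
    (((hw.ev g).and (big_ev hb g)).and ((cham_ev hg w).and (face_ev (l := G.l) w g))).exists
  exact ⟨_, ⟨ef_of_big h1 h2, h3⟩, h4⟩

theorem Seg.big {p₀ p₁ : G.κ → ℤ} (h : Seg p₀ p₁ z) (h₀ : Big (G.D p₀)) (h₁ : Big (G.D p₁)) :
    Big (G.D z) := by
  obtain ⟨a, c, ha, rfl⟩ := h
  rw [map_add, map_nsmul, map_nsmul]
  exact (h₀.nsmul ha).add_psef (h₁.psef.nsmul c)

theorem Seg.pr {p₀ p₁ : G.κ → ℤ} (h : Seg p₀ p₁ z) (h₀ : G.Ef p₀) (h₁ : G.Ef p₁) (h2 : G.Pr p₀ V)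
    (h3 : G.Pr p₁ V) : G.Pr z V := by
  obtain ⟨a, c, ha, rfl⟩ := h
  rcases c.eq_zero_or_pos with rfl | hc
  · simpa using (pr_nsmul h₀ ha).2 h2
  · exact pr_add (ef_nsmul h₀ ha) (ef_nsmul h₁ hc) ((pr_nsmul h₀ ha).2 h2) ((pr_nsmul h₁ hc).2 h3)

theorem cell_mod (C : G.Cell y) : IsMod (G.P y) := C.T_H ▸ C.T.mod

theorem cell_big (C : G.Cell y) (hy : G.Ef y) : Big (G.D y) :=
  ((ef_pos hy).big_iff.1 (cell_mod C).big).of_nsmul G.c_pos

theorem cell_car (C : G.Cell y) (hw : G.Ef w) (h : Face G.l w y) : Car (G.P y) (G.P w) :=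
  C.face w hw h ▸ C.car w

theorem pr_of_face (C : G.Cell y) (hw : G.Ef w) (h : Face G.l w y) (hV : Prm (G.P y) V) :
    G.Pr w V := ⟨((C.prm V).1 hV).1, C.face w hw h ▸ C.eqOn w V hV⟩

/-- the model of a big point dominates the models of its faces -/
theorem car_of_face (hx : G.Ef x) (hw : G.Ef w) (hb : Big (G.D w)) (h : Face G.l x w) :
    Car (G.P w) (G.P x) := by
  obtain ⟨m, ⟨h1, h2⟩, h3, h4⟩ := (((hw.1.ev (-x)).and (big_ev hb (-x))).and
    ((face_ev (l := G.l) w (-x)).and (eventually_gt_atTop 0))).exists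
  have h5 := ef_of_big h1 h2
  have h6 := P_add hx h5 (h.trans h3).conf
  rw [add_comm (m • w), add_neg_cancel_left, P_nsmul hw h4] at h6
  refine car_of_free (ef_free hw) (ef_free hx) (n := m) ?_
  rw [h6, add_sub_cancel_left, add_comm]
  exact ef_free h5

theorem can_le (G : Gm b) (W' : PModel ℂ K) (s : ℕ) : LeOn (oP W') (s • kP G.W b) (s • kP W' b) :=
  LeOn.nsmul (fun V hV => by
    by_cases h : Prm (oP G.W) V
    · exact (G.can_eq W' V hV h).le
    · exact (G.can_lt W' V hV h).le) s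

/-- the model of a big point is a klt adjoint model -/
theorem adj_P (hw : G.Ef w) (hb : Big (G.D w)) : Adj b (G.P w) := by
  have := AN.G1.essFiniteType G.W
  obtain ⟨t, q, h, ht, hq, h1, -, h2⟩ := G.adj w hw.1
  have h3 : (q • h).Free := by simpa using h2.add G.mod.free
  have h4 : G.c • G.D w - G.c • h = (G.c * t) • kP G.W b := by
    rw [h1, smul_add, add_sub_cancel_right, mul_smul]
  refine ⟨G.c * t, G.c • h, mul_pos G.c_pos ht, (nef_of_semiample hq h3).nsmul _,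
    (big_of_eff_sub G.mod.big hq h2.eff).nsmul G.c_pos, fun W' =>
      (LeOn.of_le (h4 ▸ sub_le_sub_right (ef_pos hw).le _)).trans (can_le G W' _),
    fun W' V h5 h6 => ?_⟩
  have h7 := (ef_pos hw).prm (hb.nsmul G.c_pos) G.mod ((G.car w).nsmul _) h6
  rw [val_sub, (ef_pos hw).eqOn (hb.nsmul G.c_pos) V h6, ← val_sub, h4, val_nsmul, val_nsmul,
    G.can_eq W' V h5 h7]

/-- **walls between chambers with the same primes are small** -/
theorem wallStmt : WallStmt := by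
  intro K _ _ n b G x w y y' C C' m i j hx hw hb hxw hy hy' h1 h2 hm hi hj he hs
  have := AN.G1.essFiniteType G.W
  have h3 : j • C.pi y' = m • G.P w - i • G.P y := by
    rw [← C.face w hw h1, ← C.face y hy.1 Face.rfl, ← map_nsmul, ← map_nsmul, ← map_nsmul, he,
      map_add, add_sub_cancel_left]
  have h4 : SameP (G.P w) (G.P y) := fun V => ⟨(cell_car C hw h1).prm, fun hV => by
    refine prm_of_gn (m := m) ((prm_nsmul (ef_free hy.1) hi).2 hV) (h3 ▸ Gn.nsmul ?_ j)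
    refine (gn_of_free (ef_free hy'.1) V).of_le (C.ge y' hy'.1) ?_
    rw [C.eqOn y' V hV, ((C'.prm V).1 ((hs V).1 hV)).2]⟩
  rw [Flip, C.T_H, C'.T_H]
  refine ⟨G.P w, isMod_P hw hb, h4, h4.trans hs, cell_car C hw h1, cell_car C' hw h2,
    car_of_face ⟨hx.1, hx.2.1⟩ hw hb hxw, adj_P hw hb, m, i, j, hm, hi, hj, fun V hV => ?_⟩
  have h5 := (h4 V).1 hV
  rw [val_add, val_nsmul m, val_nsmul i, val_nsmul j, (pr_of_face C hw h1 h5).2,
    ((C.prm V).1 h5).2, ((C'.prm V).1 ((hs V).1 h5)).2, ← val_nsmul, ← val_nsmul, ← val_nsmul,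
    ← val_add, smul_comm m, smul_comm i, smul_comm j, ← smul_add, ← map_nsmul G.D m,
    ← map_nsmul G.D i, ← map_nsmul G.D j, ← map_add, he]

/-! ### stars -/

/-- the point where the negative part along `E` runs out -/
theorem exists_out (hx : G.Ef x) (hy : G.Ef y) (hb : Big (G.D y)) (hxy : Face G.l x y)
    (hE : G.Pr x E) : ∃ w, G.Ef w ∧ Big (G.D w) ∧ Face G.l x w ∧ G.Pr w E ∧
      Car (G.P w) (G.P y) := by
  have := AN.G1.essFiniteType G.W
  obtain ⟨e, f, h1, h2⟩ := G.prime E hE.1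
  let U : DV ℂ K := ⟨E, hE.1.dvs⟩
  have ha : 0 ≤ G.D e + pr ℂ f := ((G.car e).add (car_pr f)).nonneg G.mod fun V hV => by
    by_cases h : V = E
    · exact h ▸ h1.le
    · exact (h2 V hV h).ge
  obtain ⟨k, hk⟩ := Int.eq_ofNat_of_zero_le (a := od U (G.D e + pr ℂ f))
    (map_zero (od U) ▸ od_le_iff.2 (ha E))
  have hk0 : 0 < k := by
    refine Nat.pos_of_ne_zero fun h => h1.not_ge ?_
    have h3 : od U (G.D e + pr ℂ f) ≤ od U 0 := by rw [hk, h, map_zero, Nat.cast_zero]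
    exact od_le_iff.1 h3
  obtain ⟨r, hr⟩ := Int.eq_ofNat_of_zero_le (a := od U (G.c • G.D y) - od U (G.P y))
    (sub_nonneg.2 (od_le_iff.2 ((ef_pos hy).le E)))
  have hck := mul_pos G.c_pos hk0
  obtain ⟨m, h3, h4⟩ := (((tendsto_id.const_mul_atTop' hck).eventually
    ((hx.1.ev ((G.c * k) • y - r • e)).and (face_ev (l := G.l) x ((G.c * k) • y - r • e))))).exists
  simp only [id] at h3 h4
  set w := (G.c * k * m) • x + ((G.c * k) • y - r • e) with hw
  have h5 : G.Ef (m • x + y) := by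
    rcases m.eq_zero_or_pos with rfl | hm
    · simpa using hy
    · exact ef_add (ef_nsmul hx hm) hy
  have h6 := (ef_pos h5).nsmul (G.c * k)
  have hx2 : od U (G.P x) = od U (G.c • G.D x) :=
    le_antisymm (od_le_iff.2 hE.2.le) (od_le_iff.2 hE.2.ge)
  have h7 : od U ((G.c * k) • G.P (m • x + y)) =
      od U ((G.c * k) • G.c • G.D (m • x + y) - (G.c * r) • (G.D e + pr ℂ f)) := by
    rw [P_face hx hy hxy, map_add G.D, map_nsmul G.D, smul_add G.c, smul_comm G.c m, map_sub,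
      map_nsmul, map_nsmul, map_nsmul (od U) (G.c * r), hk, map_add, map_add, map_nsmul (od U) m,
      map_nsmul (od U) m, hx2, sub_eq_iff_eq_add.1 hr]
    simp only [nsmul_eq_mul]
    push_cast
    ring
  have h8 : (G.c * k) • G.P (m • x + y) ≤
      (G.c * k) • G.c • G.D (m • x + y) - (G.c * r) • (G.D e + pr ℂ f) := by
    refine Car.le_of_free G.mod ((((G.car _).nsmul _).nsmul _).sub
      (((G.car e).add (car_pr f)).nsmul _)) h6.free fun V hV => ?_
    by_cases h : V = E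
    · exact h ▸ (od_le_iff (V := U)).1 h7.le
    · rw [val_sub, val_nsmul (G.c * r), h2 V hV h, one_pow, div_one]
      exact h6.le V
  have h9 := pos_add_pr (h6.of_le h8 (sub_le_self _ (nsmul_nonneg ha _))) f (G.c * r)
  have h10 : (G.c * k) • G.c • G.D (m • x + y) - (G.c * r) • (G.D e + pr ℂ f) +
      (G.c * r) • pr ℂ f = G.c • G.D w := by
    simp only [hw, map_add, map_sub, map_nsmul]
    module
  have h11 : Big (G.P (m • x + y)) := by
    rw [P_face hx hy hxy, add_comm]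
    exact (isMod_P hy hb).big.add_eff ((ef_free hx).nsmul m).eff
  rw [h10] at h9
  have h12 : Big (G.D w) := (h9.big_iff.1 ((h11.nsmul hck).add_eff
    ((free_pr f).nsmul _).eff)).of_nsmul G.c_pos
  have h13 := ef_of_big h3 h12
  have h14 := (ef_pos h13).unique h9
  refine ⟨w, h13, h12, h4, ⟨hE.1, ?_⟩, car_of_free (ef_free h13) (ef_free hy) (n := 1) ?_⟩
  · rw [h14, ← h10, val_add, val_add,
      le_antisymm ((od_le_iff (V := U)).1 h7.le) ((od_le_iff (V := U)).1 h7.ge)]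
  · obtain ⟨d, hd⟩ := Nat.exists_eq_add_of_lt hck
    convert ((((ef_free hx).nsmul m).nsmul (G.c * k)).add ((ef_free hy).nsmul d)).add
      ((free_pr f).nsmul (G.c * r)) using 1
    rw [h14, P_face hx hy hxy, hd]
    module

/-- a prime outside the negative part of a big point is a prime of an adjacent chamber -/
theorem exists_ch_prm (hC : CellStmt) (hw : G.Ef w) (hb : Big (G.D w)) (hE : G.Pr w E) :
    ∃ z, G.Ch z ∧ Face G.l w z ∧ Prm (G.P z) E := by
  have := AN.G1.essFiniteType G.W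
  obtain ⟨e, f, h1, h2⟩ := G.prime E hE.1
  obtain ⟨m, ⟨h3, h4⟩, h5⟩ :=
    (((hw.1.ev (-e)).and (big_ev hb (-e))).and (face_ev (l := G.l) w (-e))).exists
  obtain ⟨z, hz, h6⟩ := exists_ch h3 h4
  obtain ⟨C⟩ := hC K n b G z hz
  refine ⟨z, hz, h5.trans h6, by_contra fun h7 => ?_⟩
  have h8 : C.pi e + G.c • pr ℂ f = 0 := ((C.car e).add ((car_pr f).nsmul _)).eq (cell_mod C)
    Car.zero fun V hV => by
      rw [val_add, C.eqOn e V hV, ← val_add, ← smul_add, val_nsmul,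
        h2 V ((C.prm V).1 hV).1 fun h => h7 (h ▸ hV), one_pow, val_zero]
  have h9 := (ef_pos (ef_of_big h3 h4)).le
  rw [← C.face _ (ef_of_big h3 h4) h6, map_add, map_nsmul, map_neg, C.face w hw (h5.trans h6),
    neg_eq_of_add_eq_zero_right h8, map_add, map_nsmul, map_neg, smul_add, smul_comm G.c m,
    smul_neg, ← sub_eq_add_neg, le_sub_iff_add_le, add_assoc, ← smul_add] at h9
  have h10 := h9 E
  rw [val_add, val_nsmul m, val_nsmul m, hE.2, mul_le_iff_le_one_right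
    (pow_pos (val_pos _ _) m), val_nsmul, add_comm] at h10
  exact (one_lt_pow₀ h1 G.c_pos.ne').not_ge h10

/-- the direction `-K` is big and keeps all primes -/
theorem exists_anti (hx : G.Ef x) : ∃ m : ℕ, G.Ef (m • x - G.kk) ∧ Big (G.D (m • x - G.kk)) ∧
    Face G.l x (m • x - G.kk) ∧ ∀ V, G.Pr x V → G.Pr (m • x - G.kk) V := by
  obtain ⟨t, q, h, ht, hq, h1, -, h2⟩ := G.adj x hx.1
  have h3 : (q • h).Free := by simpa using h2.add G.mod.free
  obtain ⟨m, ⟨h4, h5⟩, h6⟩ := (((hx.1.ev (-G.kk)).and (face_ev (l := G.l) x (-G.kk))).and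
    (eventually_ge_atTop G.mK)).exists
  rw [← sub_eq_add_neg] at h4 h5
  obtain ⟨d, hd⟩ : ∃ d, m * t = d + G.mK :=
    Nat.exists_eq_add_of_le' (h6.trans (Nat.le_mul_of_pos_right m ht))
  have h7 : t • G.D (m • x - G.kk) = d • G.D x + (G.mK • h + t • -pr ℂ G.fk) := by
    rw [map_sub, map_nsmul, smul_sub, smul_smul, mul_comm, hd, G.D_kk, add_smul]
    conv_lhs => rw [h1]
    rw [← h1]
    nth_rewrite 2 [h1]
    module
  have h8 : Big (G.D (m • x - G.kk)) := by
    refine Big.of_nsmul ht ?_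
    obtain ⟨r, hr, h8⟩ := hx.2
    rw [h7, add_comm]
    exact (((big_of_eff_sub G.mod.big hq h2.eff).nsmul G.mK_pos).add_eff
      ((free_neg_pr _).nsmul t).eff).add_psef ((h8.psef.of_nsmul hr).nsmul d)
  have h9 := ef_of_big h4 h8
  refine ⟨m, h9, h8, h5, fun V hV => (pr_nsmul h9 ht).1 ⟨hV.1, ?_⟩⟩
  have h10 := ef_pos (ef_nsmul h9 ht)
  refine (h10.le V).antisymm ?_
  rw [map_nsmul, h7, smul_add, smul_comm] at h10 ⊢
  refine le_trans (le_of_eq ?_) (h10.ge (Q := d • G.P x + G.c • (G.mK • h + t • -pr ℂ G.fk)) hq ?_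
    (add_le_add_left (nsmul_le_nsmul_right (ef_pos hx).le d) _) V)
  · rw [val_add, val_add (d • G.P x), val_nsmul d, val_nsmul d, hV.2]
  · convert (((ef_free hx).nsmul d).nsmul q).add ((((h3.nsmul G.mK).add
      (((free_neg_pr G.fk).nsmul t).nsmul q))).nsmul G.c) using 1
    module

/-- **one half of a link** -/
theorem starStmt_of (hC : CellStmt) (hM : MissStmt) (hch : ChainStmt) : StarStmt := by
  intro K _ _ n b G x y hx hy hxy
  have hx' : G.Ef x := ⟨hx.1, hx.2.1⟩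
  let cl : ∀ z, G.Ch z → G.Cell z := fun z hz => (hC K n b G z hz).some
  by_cases h : ∀ V, G.Pr x V → Prm (G.P y) V
  · exact Or.inl fun V => ⟨pr_of_face (cl y hy) hx' hxy, h V⟩
  right
  push Not at h
  obtain ⟨E, hE, hE'⟩ := h
  obtain ⟨h1, ⟨Y, hY, hA⟩, -⟩ := hM K n b G x y (cl y hy) E hx hy hxy hE hE'
  have hYH : Y.H = G.P y := (congrArg TM.H hY).trans (cl y hy).T_H
  obtain ⟨w, hw, hb, hxw, hwE, hwy⟩ := exists_out hx' hy.1 (cell_big (cl y hy) hy.1) hxy hE
  obtain ⟨z, hz, hwz, hzE⟩ := exists_ch_prm hC hw hb hwE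
  have hxz := hxw.trans hwz
  have hzy : Car (G.P z) (G.P y) := (cell_car (cl z hz) hw hwz).trans (ef_free hz.1) hwy
  have h2 : ∀ V, Prm (G.P z) V ↔ G.Pr x V := fun V => ⟨pr_of_face (cl z hz) hx' hxz, fun hV => by
    by_cases h : V = E
    · exact h ▸ hzE
    · exact hzy.prm (h1 V hV h)⟩
  obtain ⟨m, hp, hpb, hxp, hpr⟩ := exists_anti hx'
  obtain ⟨u, hu, hu', hpu, hR⟩ := hch _ _ G.l z (m • x - G.kk) hz.2
  have hzb := cell_big (cl z hz) hz.1
  have h3 : ∀ {u}, Seg z (m • x - G.kk) u → G.Ef u := fun hu =>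
    ef_of_big (Seg.ps hu hz.1.1 hp.1) (Seg.big hu hzb hpb)
  have h4 : ∀ {u} (_ : Seg z (m • x - G.kk) u) (_ : G.Ch u) V, Prm (G.P u) V ↔ G.Pr x V :=
    fun hu hu' V => ⟨pr_of_face (cl _ hu') hx' (Seg.face hu hxz hxp), fun hV =>
      ((cl _ hu').prm V).2 (Seg.pr hu hz.1 hp (((cl z hz).prm V).1 ((h2 V).2 hV)) (hpr V hV))⟩
  have h5 : ∀ u, Relation.ReflTransGen (Nxt G.l z (m • x - G.kk)) z u → ∀ hu : G.Ch u,
      Relation.ReflTransGen (Flip b (G.P x)) (cl z hz).T (cl u hu).T := by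
    intro u hR
    induction hR with
    | refl => exact fun _ => .refl
    | tail _ hN ih =>
      obtain ⟨s1, s2, c1, c2, ⟨w', s3, f1, f2, m', i, j, hm', hi, hj, he⟩, -⟩ := hN
      intro hu
      have hu1 : G.Ch _ := ⟨h3 s1, c1⟩
      exact (ih hu1).tail (wallStmt K n b G x w' _ _ (cl _ hu1) (cl _ hu) m' i j hx (h3 s3)
        (Seg.big s3 hzb hpb) (Seg.face s3 hxz hxp) hu1 hu f1 f2 hm' hi hj he
        fun V => (h4 s1 hu1 V).trans (h4 s2 hu V).symm)
  have hu2 : G.Ch u := ⟨h3 hu, hu'⟩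
  refine ⟨(cl z hz).T, ⟨Y, E, hA, by rw [hYH, (cl z hz).T_H]; exact hzy, hYH ▸ hE', fun V => ?_,
    (cl u hu2).T, h5 u hR hu2, 1, m, one_pos, ?_⟩, (cl z hz).T_H ▸ h2,
    (cl z hz).T_H ▸ cell_car (cl z hz) hx' hxz, fun V => by rw [hYH]⟩
  · rw [hYH, (cl z hz).T_H, h2]
    refine ⟨fun hV => or_iff_not_imp_right.2 (h1 V hV), ?_⟩
    rintro (hV | rfl)
    · exact pr_of_face (cl y hy) hx' hxy hV
    · exact hE
  · convert (ef_free hp).add ((free_pr G.fk).nsmul G.c) using 1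
    rw [(cl u hu2).T_κ, ← (cl u hu2).face _ hp hpu, map_sub, map_nsmul,
      (cl u hu2).face x hx' (Seg.face hu hxz hxp), one_smul]
    abel

end Crest.Agent.X262.Sark14
end
end

-- ▼ part X262/Sark/Main

/-!
# Row 262, SARK (helper43): assembly

* `sark_of'` : `FacetStmt → MissStmt → SetupStmt n → SarkStmt n`; `sark_of_setup`, `sark_of_fg`.
-/

set_option autoImplicit false

open Filter
open scoped KaehlerDifferential

noncomputable section

namespace Crest.Agent.X262.Sark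

open Crest.Agent.X277 Crest.Agent.X277.Lef Crest.Agent.X277.BD Crest.Agent.X277.Pst
open Crest.Agent.X277.BD.Br (On oP kP)
open Crest.Agent.X262.Mod Gm

/-- **the Sarkisov program from the remaining packages** -/
theorem sark_of' (hF : FacetStmt) (hM : MissStmt) {n : ℕ} (hG : SetupStmt n) : SarkStmt n :=
  sark_of Sark46.pathStmt cellStmt hF (Sark14.starStmt_of cellStmt hM Sark46.chainStmt) hG

/-- **the Sarkisov program from the setup** -/
theorem sark_of_setup {n : ℕ} (hG : SetupStmt n) : SarkStmt n := sark_of' facetStmt missStmt hG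

/-- **the Sarkisov program from finite generation** -/
theorem sark_of_fg {n : ℕ} (hA : FG.AStmt (n + 1)) : SarkStmt n :=
  sark_of_setup (Sark46.setup_of hA)

end Crest.Agent.X262.Sark
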